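import Vale.Agent.P174.Defs

/-!
# P174: cocycles for actions of `G * F(X)`
-/

namespace Vale.Agent.P174

open Monoid

/-- Pairs of a permutation of `Q` and a function `Q → Ω`, with the wreath product law. -/
@[ext]
structure WG (Q Ω : Type*) where
  /-- permutation part -/
  perm : Equiv.Perm Q
  /-- function part -/
  val : Q → Ω

namespace WG

variable {Q Ω : Type*} [Group Ω]

instance : Mul (WG Q Ω) := ⟨fun a b => ⟨a.perm * b.perm, fun z => a.val (b.perm z) * b.val z⟩⟩
instance : One (WG Q Ω) := ⟨⟨1, fun _ => 1⟩⟩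
instance : Inv (WG Q Ω) := ⟨fun a => ⟨a.perm⁻¹, fun z => (a.val (a.perm⁻¹ z))⁻¹⟩⟩

theorem mul_perm (a b : WG Q Ω) : (a * b).perm = a.perm * b.perm := rfl
theorem mul_val (a b : WG Q Ω) (z : Q) : (a * b).val z = a.val (b.perm z) * b.val z := rfl
theorem one_perm : (1 : WG Q Ω).perm = 1 := rfl
theorem one_val (z : Q) : (1 : WG Q Ω).val z = 1 := rfl
theorem inv_perm (a : WG Q Ω) : (a⁻¹).perm = a.perm⁻¹ := rfl
theorem inv_val (a : WG Q Ω) (z : Q) : (a⁻¹).val z = (a.val (a.perm⁻¹ z))⁻¹ := rfl

instance : Group (WG Q Ω) := Group.ofLeftAxioms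
  (fun a b c => by
    ext z
    · rfl
    · simp only [mul_val, mul_perm, Equiv.Perm.mul_apply, mul_assoc])
  (fun a => by
    ext z
    · rfl
    · simp only [mul_val, one_val, one_mul])
  (fun a => by
    ext z
    · simp only [mul_perm, inv_perm, one_perm, inv_mul_cancel]
    · have h : a.perm⁻¹ (a.perm z) = z := Equiv.symm_apply_apply a.perm z
      simp only [mul_val, inv_val, one_val, h, inv_mul_cancel])

end WG

variable {G X : Type*} [Group G]

/-- `c` is a cocycle for the action of `P` on `Q`. -/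
def IsCoc {P Q Ω : Type*} [Group P] [MulAction P Q] [Group Ω] (c : P → Q → Ω) : Prop :=
  ∀ p q z, c (p * q) z = c p (q • z) * c q z

namespace IsCoc

variable {P Q Ω : Type*} [Group P] [MulAction P Q] [Group Ω] {c c' : P → Q → Ω}

theorem one (hc : IsCoc c) (z : Q) : c 1 z = 1 := by
  have h := hc 1 1 z
  rw [one_mul, one_smul] at h
  exact (mul_eq_left.mp h.symm)

theorem inv (hc : IsCoc c) (p : P) (z : Q) : c p⁻¹ (p • z) = (c p z)⁻¹ := by
  have h := hc p⁻¹ p z
  rw [inv_mul_cancel, hc.one] at h
  exact (eq_inv_of_mul_eq_one_left h.symm)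

theorem inv' (hc : IsCoc c) (p : P) (z : Q) : c p⁻¹ z = (c p (p⁻¹ • z))⁻¹ := by
  have h := hc.inv p (p⁻¹ • z)
  rwa [smul_inv_smul] at h

end IsCoc

section Ext

variable {Q Ω : Type*} [MulAction (Coprod G (FreeGroup X)) Q] [Group Ω]

theorem IsCoc.ext {c c' : Coprod G (FreeGroup X) → Q → Ω} (hc : IsCoc c) (hc' : IsCoc c')
    (h1 : ∀ g z, c (Coprod.inl g) z = c' (Coprod.inl g) z)
    (h2 : ∀ x z, c (Coprod.inr (FreeGroup.of x)) z = c' (Coprod.inr (FreeGroup.of x)) z) :
    ∀ p z, c p z = c' p z := by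
  intro p
  induction p using Monoid.Coprod.induction_on with
  | inl g => exact h1 g
  | inr f =>
    induction f using FreeGroup.induction_on with
    | C1 => intro z; rw [map_one, hc.one, hc'.one]
    | of x => exact h2 x
    | inv_of x ih => intro z; rw [map_inv, hc.inv', hc'.inv', h2]
    | mul a b iha ihb => intro z; rw [map_mul, hc, hc', iha, ihb]
  | mul a b iha ihb => intro z; rw [hc, hc', iha, ihb]

theorem exists_coc (a : G → Q → Ω)
    (ha : ∀ g h z, a (g * h) z = a g ((Coprod.inl h : Coprod G (FreeGroup X)) • z) * a h z)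
    (β : X → Q → Ω) :
    ∃ c : Coprod G (FreeGroup X) → Q → Ω, IsCoc c ∧ (∀ g z, c (Coprod.inl g) z = a g z) ∧
      ∀ x z, c (Coprod.inr (FreeGroup.of x)) z = β x z := by
  have ha1 : ∀ z, a 1 z = 1 := by
    intro z
    have h := ha 1 1 z
    rw [one_mul, map_one, one_smul] at h
    exact mul_eq_left.mp h.symm
  let A : G →* WG Q Ω :=
    { toFun := fun g => ⟨MulAction.toPermHom (Coprod G (FreeGroup X)) Q (Coprod.inl g), a g⟩
      map_one' := by
        apply WG.ext
        · change MulAction.toPermHom (Coprod G (FreeGroup X)) Q (Coprod.inl 1) = 1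
          rw [map_one, map_one]
        · funext z; exact ha1 z
      map_mul' := fun g h => by
        apply WG.ext
        · change MulAction.toPermHom (Coprod G (FreeGroup X)) Q (Coprod.inl (g * h)) =
            MulAction.toPermHom (Coprod G (FreeGroup X)) Q (Coprod.inl g) *
            MulAction.toPermHom (Coprod G (FreeGroup X)) Q (Coprod.inl h)
          rw [map_mul, map_mul]
        · funext z; exact ha g h z }
  let Ψ : Coprod G (FreeGroup X) →* WG Q Ω := Coprod.lift A (FreeGroup.lift fun x =>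
    ⟨MulAction.toPermHom (Coprod G (FreeGroup X)) Q (Coprod.inr (FreeGroup.of x)), β x⟩)
  have hperm : ∀ p z, (Ψ p).perm z = p • z := by
    intro p
    induction p using Monoid.Coprod.induction_on with
    | inl g => intro z; simp [Ψ, A]
    | inr f =>
      induction f using FreeGroup.induction_on with
      | C1 => intro z; simp [WG.one_perm]
      | of x => intro z; simp [Ψ]
      | inv_of x ih =>
        intro z
        rw [map_inv, map_inv, WG.inv_perm, Equiv.Perm.inv_eq_iff_eq]
        rw [ih, smul_inv_smul]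
      | mul a b iha ihb =>
        intro z
        rw [map_mul, map_mul, WG.mul_perm, Equiv.Perm.mul_apply, ihb, iha, mul_smul]
    | mul a b iha ihb =>
      intro z
      rw [map_mul, WG.mul_perm, Equiv.Perm.mul_apply, ihb, iha, mul_smul]
  refine ⟨fun p z => (Ψ p).val z, ?_, ?_, ?_⟩
  · intro p q z
    change (Ψ (p * q)).val z = _
    rw [map_mul, WG.mul_val, hperm]
  · intro g z
    simp [Ψ, A]
  · intro x z
    simp [Ψ]

end Ext

end Vale.Agent.P174
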