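import Vale.Agent.P174.MatB

/-!
# P174: small algebra lemmas, groups
-/

namespace Vale.Agent.P174

open Matrix

/-- A finitely generated group without nontrivial homomorphisms to `ℤ/p` has finite
abelianization. -/
theorem finite_abelianization (p : ℕ) [Fact p.Prime] {H : Type*} [Group H] (hfg : Group.FG H)
    (h : ∀ f : H →* Multiplicative (ZMod p), f = 1) : Finite (Abelianization H) := by
  classical
  have : Group.FG H := hfg
  have h1 : Group.FG (Abelianization H) :=
    Group.fg_of_surjective (f := (Abelianization.of : H →* Abelianization H))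
      (by intro x; obtain ⟨y, hy⟩ := QuotientGroup.mk_surjective x; exact ⟨y, hy⟩)
  have : AddGroup.FG (Additive (Abelianization H)) := inferInstance
  obtain ⟨n, ι, fι, q, hq, e, ⟨f⟩⟩ :=
    AddCommGroup.equiv_free_prod_directSum_zmod (Additive (Abelianization H))
  rcases n with - | n
  · have : ∀ i : ι, NeZero (q i ^ e i) := fun i => ⟨pow_ne_zero _ (hq i).ne_zero⟩
    have : Finite (DirectSum ι fun i => ZMod (q i ^ e i)) :=
      Finite.of_equiv _ DFinsupp.equivFunOnFintype.symm
    have : Finite (Fin 0 →₀ ℤ) := inferInstance
    exact Finite.of_equiv _ f.symm.toEquiv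
  · exfalso
    let φ : Additive (Abelianization H) →+ ZMod p :=
      (Int.castAddHom (ZMod p)).comp ((Finsupp.applyAddHom (0 : Fin (n + 1))).comp
        ((AddMonoidHom.fst _ _).comp f.toAddMonoidHom))
    let ψ : H →* Multiplicative (ZMod p) :=
      (AddMonoidHom.toMultiplicativeRight φ).comp Abelianization.of
    have hψ := h ψ
    obtain ⟨x, hx⟩ := f.surjective (Finsupp.single 0 1, 0)
    obtain ⟨y, hy⟩ := QuotientGroup.mk_surjective (Additive.toMul x)
    have h2 : ψ y = 1 := by rw [hψ]; rfl
    have h3 : ψ y = Multiplicative.ofAdd (φ (Additive.ofMul (Abelianization.of y))) := rfl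
    have h4 : Additive.ofMul (Abelianization.of y) = x := by
      have : Abelianization.of y = Additive.toMul x := hy
      rw [this]; rfl
    rw [h3, h4] at h2
    have h5 : φ x = 0 := by simpa using h2
    have h6 : φ x = 1 := by
      simp [φ, hx]
    rw [h6] at h5
    exact one_ne_zero h5

/-- Howie's conjecture passes to subgroups. -/
theorem howie_of_injective {G H : Type*} [Group G] [Group H] (f : H →* G)
    (hf : Function.Injective f) (hG : Howie G) : Howie H := by
  intro m n w hw
  let F : Monoid.Coprod H (FreeGroup (Fin n)) →* Monoid.Coprod G (FreeGroup (Fin n)) :=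
    Monoid.Coprod.map f (MonoidHom.id _)
  have hexp : (expSum G n).comp F = expSum H n := by
    apply Monoid.Coprod.hom_ext
    · ext x
      simp [expSum, F]
    · ext x
      simp [expSum, F]
  have hM : expMatrix (fun i => F (w i)) = expMatrix w := by
    ext i j
    simp only [expMatrix, Matrix.of_apply]
    rw [← hexp]; rfl
  have h1 := hG m n (fun i => F (w i)) (by rw [hM]; exact hw)
  intro a b hab
  simp only at hab
  apply hf
  apply h1
  simp only
  rw [QuotientGroup.eq] at hab ⊢
  have h2 : Subgroup.normalClosure (Set.range w) ≤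
      (Subgroup.normalClosure (Set.range fun i => F (w i))).comap F := by
    apply Subgroup.normalClosure_le_normal
    rintro _ ⟨i, rfl⟩
    exact Subgroup.subset_normalClosure ⟨i, rfl⟩
  have h3 := h2 hab
  simpa [F] using h3

/-- A finitely generated subgroup with finite abelianization lies in every normal subgroup with
locally indicable quotient. -/
theorem le_of_locallyIndicable {G : Type*} [Group G] (N : Subgroup G) [N.Normal]
    (hN : LocallyIndicable (G ⧸ N)) (H : Subgroup G) (hfg : H.FG)
    (hfin : Finite (Abelianization H)) : H ≤ N := by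
  by_contra hle
  let K : Subgroup (G ⧸ N) := H.map (QuotientGroup.mk' N)
  have hK : K ≠ ⊥ := by
    intro h0
    apply hle
    intro x hx
    have : QuotientGroup.mk' N x ∈ K := ⟨x, hx, rfl⟩
    rw [h0, Subgroup.mem_bot] at this
    exact (QuotientGroup.eq_one_iff x).1 this
  have hHfg : Group.FG H := (Group.fg_iff_subgroup_fg H).2 hfg
  have hKfg : K.FG := (Group.fg_iff_subgroup_fg K).1
    (Group.fg_of_surjective (f := (QuotientGroup.mk' N).subgroupMap H)
      ((QuotientGroup.mk' N).subgroupMap_surjective H))
  obtain ⟨f, hf⟩ := hN K hKfg hK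
  let g : H →* K := (QuotientGroup.mk' N).subgroupMap H
  have hg : Function.Surjective g := (QuotientGroup.mk' N).subgroupMap_surjective H
  let φ : Abelianization H →* Multiplicative ℤ := Abelianization.lift (f.comp g)
  have hφ : Function.Surjective φ := by
    intro z
    obtain ⟨k, hk⟩ := hf z
    obtain ⟨y, hy⟩ := hg k
    exact ⟨Abelianization.of y, by simp [φ, hy, hk]⟩
  have : Finite (Multiplicative ℤ) := Finite.of_surjective _ hφ
  exact not_finite (Multiplicative ℤ)

/-- Howie's conjecture holds for commutative groups. -/
theorem howie_of_comm {G : Type*} [Group G] (hG : ∀ a b : G, a * b = b * a) : Howie G := by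
  let : CommGroup G := { (inferInstance : Group G) with mul_comm := hG }
  intro m n w hw
  set A := expMatrix w with hA
  have hd := gram_det_ne_zero A hw
  set d := (A * Aᵀ).det with hdd
  -- the key: every character extends
  have key : ∀ g : G, Monoid.Coprod.inl g ∈ Subgroup.normalClosure (Set.range w) → g = 1 := by
    intro g hg
    by_contra hne
    have hne' : (Additive.ofMul g) ≠ 0 := by simpa using hne
    obtain ⟨c, hc⟩ := CharacterModule.exists_character_apply_ne_zero_of_ne_zero hne'
    let χ : G →* Multiplicative (AddCircle (1 : ℚ)) :=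
      AddMonoidHom.toMultiplicativeRight (c : Additive G →+ AddCircle (1 : ℚ))
    let φ0 : Monoid.Coprod G (FreeGroup (Fin n)) →* Multiplicative (AddCircle (1 : ℚ)) :=
      Monoid.Coprod.lift χ 1
    -- b_i
    let b : Fin m → AddCircle (1 : ℚ) := fun i => - Multiplicative.toAdd (φ0 (w i))
    -- divide by d
    have hdiv : ∀ i, ∃ s : AddCircle (1 : ℚ), d • s = b i := by
      intro i
      obtain ⟨x, hx⟩ := QuotientAddGroup.mk_surjective (b i)
      refine ⟨((x / (d : ℚ) : ℚ) : AddCircle (1 : ℚ)), ?_⟩
      rw [← AddCircle.coe_zsmul, ← hx]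
      congr 1
      have : (d : ℚ) ≠ 0 := by exact_mod_cast hd
      simp only [zsmul_eq_mul]
      field_simp
    choose s hs using hdiv
    let C : Matrix (Fin n) (Fin m) ℤ := Aᵀ * (A * Aᵀ).adjugate
    have hAC : A * C = d • (1 : Matrix (Fin m) (Fin m) ℤ) := by
      rw [← Matrix.mul_assoc, Matrix.mul_adjugate]
    let t : Fin n → AddCircle (1 : ℚ) := fun j => ∑ i, C j i • s i
    have ht : ∀ i, ∑ j, A i j • t j = b i := by
      intro i
      calc ∑ j, A i j • t j = ∑ j, ∑ k, (A i j * C j k) • s k := by
            apply Finset.sum_congr rfl; intro j _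
            rw [Finset.smul_sum]
            apply Finset.sum_congr rfl; intro k _
            rw [mul_smul]
        _ = ∑ k, (∑ j, A i j * C j k) • s k := by
            rw [Finset.sum_comm]
            apply Finset.sum_congr rfl; intro k _
            rw [Finset.sum_smul]
        _ = ∑ k, ((A * C) i k) • s k := by rfl
        _ = b i := by
            rw [hAC]
            rw [Finset.sum_eq_single i]
            · simp [hs]
            · intro k _ hk
              simp [Matrix.one_apply_ne (Ne.symm hk)]
            · simp
    let T : (Fin n → ℤ) →+ AddCircle (1 : ℚ) :=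
      { toFun := fun a => ∑ j, a j • t j
        map_zero' := by simp
        map_add' := by intro x y; simp [add_smul, Finset.sum_add_distrib] }
    let φ1 : Monoid.Coprod G (FreeGroup (Fin n)) →* Multiplicative (AddCircle (1 : ℚ)) :=
      (AddMonoidHom.toMultiplicative T).comp (expSum G n)
    let φ : Monoid.Coprod G (FreeGroup (Fin n)) →* Multiplicative (AddCircle (1 : ℚ)) := φ0 * φ1
    have hφw : ∀ i, φ (w i) = 1 := by
      intro i
      have h1 : φ (w i) = φ0 (w i) * φ1 (w i) := rfl
      have h2 : φ1 (w i) = Multiplicative.ofAdd (b i) := by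
        rw [← ht i]; rfl
      rw [h1, h2]
      apply Multiplicative.toAdd.injective
      simp [b]
    have hker : Subgroup.normalClosure (Set.range w) ≤ φ.ker := by
      apply Subgroup.normalClosure_le_normal
      rintro _ ⟨i, rfl⟩
      exact hφw i
    have h3 : φ (Monoid.Coprod.inl g) = 1 := hker hg
    have h4 : φ (Monoid.Coprod.inl g) = χ g := by
      have h5 : φ (Monoid.Coprod.inl g) = φ0 (Monoid.Coprod.inl g) * φ1 (Monoid.Coprod.inl g) :=
        rfl
      rw [h5]
      simp [φ0, φ1, expSum]
    rw [h4] at h3
    apply hc
    exact congrArg Multiplicative.toAdd h3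
  intro a b' hab
  simp only at hab
  rw [QuotientGroup.eq] at hab
  have h1 := key (a⁻¹ * b') (by simpa using hab)
  exact inv_mul_eq_one.1 h1

end Vale.Agent.P174
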