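import Vale.Agent.P174.MatB
import Vale.Agent.P174.MatC

/-!
# P174: small algebra lemmas (all proved in `MatB` and `MatC`)
-/
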