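import Vale.Agent.P174.Final
import Vale.Agent.P174.MatA

/-!
# P174: consequences over `ℚ`
-/

namespace Vale.Agent.P174

open Monoid

universe u

/-- Howie's conjecture for `G` follows from Howie's conjecture for the finitely generated
subgroups of `G` with finite abelianization. -/
theorem howie_of_subgroups (G : Type u) [Group G]
    (hG : ∀ H : Subgroup G, H.FG → Finite (Abelianization H) → Howie H) : Howie G := by
  intro m n w hw
  obtain ⟨p, hp, hr⟩ := exists_prime_rank _ hw
  refine howieMod_of_subgroups p G (fun H hfg hH m' n' w' hw' => ?_) m n w hr
  exact hG H hfg (finite_abelianization p ((Group.fg_iff_subgroup_fg H).mpr hfg) hH) m' n' w'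
    (rank_of_rank_mod p _ hw')

theorem howie_of_extension (G : Type u) [Group G] (N : Subgroup G) [N.Normal] (hN : Howie N)
    (hLI : LocallyIndicable (G ⧸ N)) : Howie G :=
  howie_of_subgroups G fun H hfg hfin =>
    howie_of_injective (Subgroup.inclusion (le_of_locallyIndicable N hLI H hfg hfin))
      (Subgroup.inclusion_injective _) hN

end Vale.Agent.P174
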