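import Vale.Agent.P174.Lin

/-!
# P174: independence of the rows persists in `ℤ/p`-covers
-/

namespace Vale.Agent.P174

open Monoid

theorem exists_fixed {p : ℕ} [Fact p.Prime] {V : Type*} [AddCommGroup V] [Module (ZMod p) V]
    (T : V →ₗ[ZMod p] V) (hT : T ^ p = 1) (K : Submodule (ZMod p) V) (hK : ∀ v ∈ K, T v ∈ K)
    (v : V) (hv : v ∈ K) (h0 : v ≠ 0) : ∃ u ∈ K, u ≠ 0 ∧ T u = u := by
  classical
  have hD : (T - 1 : Module.End (ZMod p) V) ^ p = 0 := by
    have h1 : ((Polynomial.X : Polynomial (ZMod p)) - 1) ^ p = Polynomial.X ^ p - 1 := by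
      rw [sub_pow_char, one_pow]
    have h2 := congrArg (Polynomial.aeval T) h1
    simpa [hT] using h2
  have hKD : ∀ u ∈ K, (T - 1 : Module.End (ZMod p) V) u ∈ K := fun u hu => K.sub_mem (hK u hu) hu
  have hKn : ∀ n : ℕ, ((T - 1 : Module.End (ZMod p) V) ^ n) v ∈ K := by
    intro n
    induction n with
    | zero => simpa using hv
    | succ n ih => rw [pow_succ']; exact hKD _ ih
  have hex : ∃ n : ℕ, ((T - 1 : Module.End (ZMod p) V) ^ n) v = 0 := ⟨p, by rw [hD]; rfl⟩
  have hn := Nat.find_spec hex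
  have hpos : Nat.find hex ≠ 0 := by
    intro h
    rw [h] at hn
    exact h0 (by simpa using hn)
  obtain ⟨m, hm⟩ := Nat.exists_eq_succ_of_ne_zero hpos
  refine ⟨((T - 1 : Module.End (ZMod p) V) ^ m) v, hKn m, Nat.find_min hex (by omega), ?_⟩
  rw [hm, Nat.succ_eq_add_one, pow_succ'] at hn
  have h3 : T (((T - 1 : Module.End (ZMod p) V) ^ m) v) -
      ((T - 1 : Module.End (ZMod p) V) ^ m) v = 0 := hn
  exact sub_eq_zero.mp h3

variable {G X : Type*} [Group G] {ι : Type*}

theorem Good.cover {p : ℕ} [Fact p.Prime] {Q Q' : Type*}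
    [MulAction (Coprod G (FreeGroup X)) Q] [MulAction (Coprod G (FreeGroup X)) Q']
    (π : Q' → Q) (hπ : ∀ (g : Coprod G (FreeGroup X)) z, π (g • z) = g • π z)
    (ρ : Multiplicative (ZMod p) →* Equiv.Perm Q')
    (hρ : ∀ γ (g : Coprod G (FreeGroup X)) z, ρ γ (g • z) = g • ρ γ z)
    (hπρ : ∀ γ z, π (ρ γ z) = π z)
    (sec : Set Q') (hsec : ∀ z, ∃! γ, ρ γ z ∈ sec) (hinj : Set.InjOn π sec)
    {w : ι → Coprod G (FreeGroup X)} {J : Set (ι × Q)} (h : Good (ZMod p) w J) :
    Good (ZMod p) w {iz : ι × Q' | (iz.1, π iz.2) ∈ J} := by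
  classical
  set J' : Set (ι × Q') := {iz : ι × Q' | (iz.1, π iz.2) ∈ J} with hJ'
  let K : Submodule (ZMod p) ((ι × Q') →₀ ZMod p) :=
    { carrier := {f | (↑f.support : Set (ι × Q')) ⊆ J' ∧ ∀ β, pair w f β = 0}
      add_mem' := by
        rintro a b ⟨ha, ha'⟩ ⟨hb, hb'⟩
        refine ⟨?_, fun β => by rw [pair_add_left, ha', hb', add_zero]⟩
        intro y hy
        have := Finsupp.support_add hy
        rw [Finset.mem_union] at this
        exact this.elim (fun h => ha h) (fun h => hb h)
      zero_mem' := ⟨by simp, fun β => pair_zero_left w β⟩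
      smul_mem' := by
        rintro c f ⟨hf, hf'⟩
        refine ⟨fun y hy => hf (Finsupp.support_smul hy), fun β => ?_⟩
        have h1 : pair w (c • f) β = c * pair w f β := by
          unfold pair
          rw [Finsupp.sum_smul_index (fun _ => zero_mul _), Finsupp.mul_sum]
          exact Finsupp.sum_congr fun _ _ => mul_assoc _ _ _
        rw [h1, hf', mul_zero] }
  let T : ((ι × Q') →₀ ZMod p) →ₗ[ZMod p] ((ι × Q') →₀ ZMod p) :=
    Finsupp.lmapDomain (ZMod p) (ZMod p) (Prod.map id (ρ (Multiplicative.ofAdd 1)))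
  have hTn : ∀ (n : ℕ) f, (T ^ n) f =
      Finsupp.mapDomain (Prod.map id (ρ (Multiplicative.ofAdd (n : ZMod p)))) f := by
    intro n
    induction n with
    | zero =>
      intro f
      have : (Prod.map id (ρ (Multiplicative.ofAdd ((0 : ℕ) : ZMod p))) : ι × Q' → ι × Q') = id := by
        funext z
        simp
      rw [this, Finsupp.mapDomain_id]
      rfl
    | succ n ih =>
      intro f
      rw [pow_succ', Module.End.mul_apply, ih]
      change Finsupp.mapDomain _ (Finsupp.mapDomain _ f) = _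
      rw [← Finsupp.mapDomain_comp]
      congr 1
      funext z
      simp only [Function.comp, Prod.map, id]
      rw [Nat.cast_succ, add_comm, ofAdd_add, map_mul]
      rfl
  have hTp : T ^ p = 1 := by
    ext1 f
    apply LinearMap.ext
    intro c
    rw [LinearMap.comp_apply, hTn]
    have : (Prod.map id (ρ (Multiplicative.ofAdd ((p : ℕ) : ZMod p))) : ι × Q' → ι × Q') = id := by
      funext z
      simp
    rw [this, Finsupp.mapDomain_id]
    rfl
  have hKT : ∀ f ∈ K, T f ∈ K := by
    rintro f ⟨hf, hf'⟩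
    refine ⟨?_, fun β => ?_⟩
    · intro y hy
      have := Finsupp.mapDomain_support hy
      rw [Finset.mem_image] at this
      obtain ⟨x, hx, rfl⟩ := this
      have hx' : (x.1, π x.2) ∈ J := hf hx
      change (x.1, π (ρ _ x.2)) ∈ J
      rwa [hπρ]
    · change pair w (Finsupp.mapDomain _ f) β = 0
      rw [pair_mapDomain (ρ (Multiplicative.ofAdd 1)) (hρ _)]
      exact hf' _
  intro f0 hf0 hf0'
  by_contra hne
  obtain ⟨f, ⟨hfJ, hfβ⟩, hfne, hTf⟩ := exists_fixed T hTp K hKT f0 ⟨hf0, hf0'⟩ hne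
  -- invariance
  have hTnf : ∀ n : ℕ, (T ^ n) f = f := by
    intro n
    induction n with
    | zero => rfl
    | succ n ih => rw [pow_succ, Module.End.mul_apply, hTf, ih]
  have hinv : ∀ γ i z, f (i, ρ γ z) = f (i, z) := by
    intro γ i z
    have h1 := hTnf (Multiplicative.toAdd γ).val
    rw [hTn] at h1
    have h2 : (((Multiplicative.toAdd γ).val : ℕ) : ZMod p) = Multiplicative.toAdd γ :=
      ZMod.natCast_zmod_val _
    rw [h2, ofAdd_toAdd] at h1
    have hi : Function.Injective (Prod.map id (ρ γ) : ι × Q' → ι × Q') :=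
      Function.Injective.prodMap Function.injective_id (ρ γ).injective
    have h3 := Finsupp.mapDomain_apply hi f (i, z)
    rw [h1] at h3
    exact h3
  set g : (ι × Q') →₀ ZMod p := f.filter (fun iz => iz.2 ∈ sec) with hg
  have hdec : f = ∑ γ : Multiplicative (ZMod p), g.mapDomain (Prod.map id (ρ γ)) := by
    ext ⟨i, z⟩
    rw [Finsupp.finsetSum_apply]
    have h1 : ∀ γ, (g.mapDomain (Prod.map id (ρ γ))) (i, z) = g (i, ρ γ⁻¹ z) := by
      intro γ
      have hi : Function.Injective (Prod.map id (ρ γ) : ι × Q' → ι × Q') :=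
        Function.Injective.prodMap Function.injective_id (ρ γ).injective
      have h3 := Finsupp.mapDomain_apply hi g (i, ρ γ⁻¹ z)
      rw [← h3]
      congr 1
      simp only [Prod.map, id]
      rw [map_inv]
      simp
    simp only [h1]
    have hre : ∑ γ : Multiplicative (ZMod p), g (i, ρ γ⁻¹ z) =
        ∑ γ : Multiplicative (ZMod p), g (i, ρ γ z) :=
      Equiv.sum_comp (Equiv.inv (Multiplicative (ZMod p))) (fun γ => g (i, ρ γ z))
    rw [hre]
    obtain ⟨γ0, hγ0, hu⟩ := hsec z
    rw [Finset.sum_eq_single γ0]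
    · have hp1 : g (i, ρ γ0 z) = f (i, ρ γ0 z) :=
        Finsupp.filter_apply_pos (fun iz : ι × Q' => iz.2 ∈ sec) f hγ0
      rw [hp1, hinv]
    · intro γ _ hγ
      rw [hg, Finsupp.filter_apply_neg]
      intro hc
      exact hγ (hu γ hc)
    · intro hc
      exact absurd (Finset.mem_univ _) hc
  have hg0 : g.mapDomain (Prod.map id π) = 0 := by
    refine h _ ?_ fun β => ?_
    · intro y hy
      have := Finsupp.mapDomain_support hy
      rw [Finset.mem_image] at this
      obtain ⟨x, hx, rfl⟩ := this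
      have hx2 : x ∈ f.support := by
        rw [hg, Finsupp.support_filter, Finset.mem_filter] at hx
        exact hx.1
      exact hfJ hx2
    · rw [pair_mapDomain π hπ]
      have h1 := hfβ (fun x z => if z ∈ sec then β x (π z) else 0)
      rw [hdec, pair_sum_left] at h1
      simp only [pair_mapDomain _ (hρ _)] at h1
      rw [← pair_sum_right] at h1
      rw [← h1]
      congr 1
      funext x z
      obtain ⟨γ0, hγ0, hu⟩ := hsec z
      rw [Finset.sum_eq_single γ0]
      · rw [if_pos hγ0, hπρ]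
      · intro γ _ hγ
        rw [if_neg]
        intro hc
        exact hγ (hu γ hc)
      · intro hc
        exact absurd (Finset.mem_univ _) hc
  have hgz : g = 0 := by
    have h2 : g.mapDomain (Prod.map id π) = (0 : (ι × Q') →₀ ZMod p).mapDomain (Prod.map id π) := by
      rw [hg0, Finsupp.mapDomain_zero]
    refine Finsupp.mapDomain_injOn {iz : ι × Q' | iz.2 ∈ sec} ?_ ?_ ?_ h2
    · rintro ⟨i, z⟩ hz ⟨j, y⟩ hy hzy
      simp only [Prod.map, id, Prod.mk.injEq] at hzy
      have hzz : z = y := hinj hz hy hzy.2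
      rw [hzy.1, hzz]
    · intro y hy
      have hy' : y ∈ g.support := hy
      rw [hg, Finsupp.support_filter, Finset.mem_filter] at hy'
      exact hy'.2
    · simp
  apply hfne
  rw [hdec, hgz]
  simp

end Vale.Agent.P174
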