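import Mathlib

/-!
# P174: systems of equations over groups, definitions
-/

namespace Vale.Agent.P174

/-- The homomorphism `G * F_n → ℤ^n` that kills `G` and sends the free generator `x_j` to the
`j`-th unit vector. -/
def expSum (G : Type*) [Group G] (n : ℕ) :
    Monoid.Coprod G (FreeGroup (Fin n)) →* Multiplicative (Fin n → ℤ) :=
  Monoid.Coprod.lift 1 (FreeGroup.lift fun j => Multiplicative.ofAdd (Pi.single j 1))

/-- The exponent-sum matrix of a system `w_1, ..., w_m` in `G * F_n`. -/
def expMatrix {G : Type*} [Group G] {m n : ℕ}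
    (w : Fin m → Monoid.Coprod G (FreeGroup (Fin n))) : Matrix (Fin m) (Fin n) ℤ :=
  Matrix.of fun i j => Multiplicative.toAdd (expSum G n (w i)) j

/-- The system is solvable over `G`: the canonical homomorphism
`G → (G * F_n) / ⟨⟨w_1, ..., w_m⟩⟩` is injective. -/
def SolvableOver {G : Type*} [Group G] {m n : ℕ}
    (w : Fin m → Monoid.Coprod G (FreeGroup (Fin n))) : Prop :=
  Function.Injective fun g : G =>
    (QuotientGroup.mk (Monoid.Coprod.inl g) :
      Monoid.Coprod G (FreeGroup (Fin n)) ⧸ Subgroup.normalClosure (Set.range w))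

/-- Howie's conjecture for the group `G`: every finite system over `G` whose exponent-sum matrix
has rank `m` over `ℚ` is solvable over `G`. -/
def Howie (G : Type*) [Group G] : Prop :=
  ∀ (m n : ℕ) (w : Fin m → Monoid.Coprod G (FreeGroup (Fin n))),
    ((expMatrix w).map (Int.cast : ℤ → ℚ)).rank = m → SolvableOver w

/-- The mod `p` version: every finite system over `G` whose exponent-sum matrix
has rank `m` over `ℤ/p` is solvable over `G`. -/
def HowieMod (p : ℕ) [Fact p.Prime] (G : Type*) [Group G] : Prop :=
  ∀ (m n : ℕ) (w : Fin m → Monoid.Coprod G (FreeGroup (Fin n))),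
    ((expMatrix w).map (Int.cast : ℤ → ZMod p)).rank = m → SolvableOver w

/-- Every nontrivial finitely generated subgroup maps onto `ℤ`. -/
def LocallyIndicable (G : Type*) [Group G] : Prop :=
  ∀ H : Subgroup G, H.FG → H ≠ ⊥ → ∃ f : H →* Multiplicative ℤ, Function.Surjective f

end Vale.Agent.P174
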