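import Vale.Agent.P174.Main

/-!
# P174: the final assembly of the mod `p` theorem
-/

namespace Vale.Agent.P174

open Monoid

universe u

section Rows

variable {G X k Q : Type*} [Group G] [Field k] [MulAction (Coprod G (FreeGroup X)) Q]

/-- The row of `p` at `z` as a finitely supported function. -/
noncomputable def row (k : Type*) [Field k] (p : Coprod G (FreeGroup X)) (z : Q) : (X × Q) →₀ k :=
  ecoc (fun x z => Finsupp.single (x, z) (1 : k)) p z

theorem ecoc_eq_row (β : X → Q → k) (p : Coprod G (FreeGroup X)) (z : Q) :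
    ecoc β p z = (row k p z).sum fun xy c => c * β xy.1 xy.2 := by
  have h := ecoc_map (G := G) (Finsupp.linearCombination k
    (fun xy : X × Q => β xy.1 xy.2)).toAddMonoidHom
    (fun (x : X) (z : Q) => Finsupp.single (x, z) (1 : k)) p z
  simp only [LinearMap.toAddMonoidHom_coe, Finsupp.linearCombination_single, one_smul] at h
  rw [← h]
  rfl

theorem row_apply (p : Coprod G (FreeGroup X)) (z : Q) (y : X × Q) :
    row k p z y = ecoc (fun x z => (Finsupp.single (x, z) (1 : k)) y) p z :=
  ecoc_map (G := G) (Finsupp.applyAddHom y) (fun (x : X) (z : Q) => Finsupp.single (x, z) (1 : k))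
    p z

end Rows

theorem howieMod_of_subgroups (p : ℕ) [Fact p.Prime] (G : Type u) [Group G]
    (hG : ∀ H : Subgroup G, H.FG → (∀ f : H →* Multiplicative (ZMod p), f = 1) → HowieMod p H) :
    HowieMod p G := by
  classical
  intro m n w hrank
  -- reduction to the kernel
  suffices hker : ∀ g : G, (Coprod.inl g : Coprod G (FreeGroup (Fin n))) ∈
      Subgroup.normalClosure (Set.range w) → g = 1 by
    intro g g' hgg'
    have h1 := QuotientGroup.eq.mp hgg'
    rw [← map_inv, ← map_mul] at h1
    exact inv_mul_eq_one.mp (hker _ h1)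
  intro g0 hg0
  obtain ⟨T, hT⟩ := mem_closure_of_mem_normalClosure w _ hg0
  obtain ⟨S, hSfg, hSc, hSgood, hSθ⟩ := exists_finest w T (good_top w hrank T)
  set b : Coprod G (FreeGroup (Fin n)) ⧸ S := QuotientGroup.mk 1 with hb
  obtain ⟨α, hα, hαb⟩ := exists_alpha (G := G) (X := Fin n) b
  have hbS : ∀ s : S, (s : Coprod G (FreeGroup (Fin n))) • b = b := by
    intro s
    change (QuotientGroup.mk ((s : Coprod G (FreeGroup (Fin n))) * 1) : _ ⧸ S) = _
    rw [hb, QuotientGroup.eq]
    simp
  have hmemS : ∀ x : Coprod G (FreeGroup (Fin n)), x • b = b → x ∈ S := by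
    intro x hx
    change (QuotientGroup.mk (x * 1) : _ ⧸ S) = QuotientGroup.mk 1 at hx
    rw [QuotientGroup.eq] at hx
    have := S.inv_mem hx
    simpa using this
  have hstab : ∀ h : stab (G := G) (X := Fin n) b,
      (Coprod.inl (h : G) : Coprod G (FreeGroup (Fin n))) ∈ S := fun h => hmemS _ h.2
  -- the relators on the coset of `v`
  have hcosets : ∀ t ∈ T, (t.1, (QuotientGroup.mk t.2 : Coprod G (FreeGroup (Fin n)) ⧸ S)) ∈
      visited T S := fun t ht => ⟨t, ht, rfl⟩
  have hfin : (visited T S).Finite := (Finset.finite_toSet T).image _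
  -- `H` is finitely generated
  have hHfg : (stab (G := G) (X := Fin n) b).FG := by
    obtain ⟨c, hc, hcinl, _⟩ := exists_coc (G := G) (X := Fin n) α hα (fun _ _ => 1)
    rw [← Group.fg_iff_subgroup_fg] at hSfg ⊢
    refine Group.fg_of_surjective (f := resHom c hc) ?_
    intro h
    refine ⟨⟨Coprod.inl (h : G), hstab h⟩, ?_⟩
    change c (Coprod.inl (h : G)) b = h
    rw [hcinl, hαb]
  -- `H` has no nontrivial homomorphism to `ℤ/p`
  have hHp : ∀ f : stab (G := G) (X := Fin n) b →* Multiplicative (ZMod p), f = 1 := by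
    intro ψ
    obtain ⟨A, hA, hAinl, _⟩ := exists_coc (G := G) (X := Fin n)
      (Q := Coprod G (FreeGroup (Fin n)) ⧸ S) (fun g z => ψ (α g z))
      (fun g h z => by rw [hα, map_mul]) (fun _ _ => 1)
    obtain ⟨β, hβ⟩ := hSgood.exists_beta hfin
      (fun iz => - Multiplicative.toAdd (A (w iz.1) iz.2))
    let c : Coprod G (FreeGroup (Fin n)) → Coprod G (FreeGroup (Fin n)) ⧸ S →
        Multiplicative (ZMod p) := fun q z => A q z * Multiplicative.ofAdd (ecoc β q z)
    have hc : IsCoc c := by
      intro q r z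
      simp only [c]
      rw [hA, ecoc_mul, ofAdd_add]
      exact mul_mul_mul_comm _ _ _ _
    have hcw : ∀ t ∈ T, c (w t.1) (QuotientGroup.mk t.2) = 1 := by
      intro t ht
      simp only [c]
      rw [hβ _ (hcosets t ht), ofAdd_neg, ofAdd_toAdd, mul_inv_cancel]
    have hres := hSθ (resHom c hc) (by
      rintro ⟨x, hx⟩ ⟨t, ht, rfl⟩
      change c (t.2⁻¹ * w t.1 * t.2) (QuotientGroup.mk 1) = 1
      rw [coc_conj c hc _ _ hx, hcw t ht]
      simp)
    ext h
    have h1 := DFunLike.congr_fun hres ⟨Coprod.inl (h : G), hstab h⟩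
    change c (Coprod.inl (h : G)) b = 1 at h1
    simp only [c] at h1
    rw [hAinl, hαb, ecoc_inl, ofAdd_zero, mul_one] at h1
    rw [h1]
    rfl
  -- the system over `H`
  have hH := hG _ hHfg hHp
  let J0 : Finset (Fin m × (Coprod G (FreeGroup (Fin n)) ⧸ S)) := hfin.toFinset
  let eJ : J0 ≃ Fin J0.card := J0.equivFin
  let Y0 : Finset (Fin n × (Coprod G (FreeGroup (Fin n)) ⧸ S)) :=
    J0.biUnion fun iz => (row (ZMod p) (w iz.1) iz.2).support
  let e : Y0 ≃ Fin Y0.card := Y0.equivFin
  obtain ⟨c, hc, hcinl, hcof⟩ := exists_coc (G := G) (X := Fin n)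
    (Q := Coprod G (FreeGroup (Fin n)) ⧸ S)
    (Ω := Coprod (stab (G := G) (X := Fin n) b) (FreeGroup (Fin Y0.card)))
    (fun g z => Coprod.inl (α g z)) (fun g h z => by rw [hα, map_mul])
    (fun x z => if h : (x, z) ∈ Y0 then Coprod.inr (FreeGroup.of (e ⟨(x, z), h⟩)) else 1)
  let W : Fin J0.card → Coprod (stab (G := G) (X := Fin n) b) (FreeGroup (Fin Y0.card)) :=
    fun k => c (w (eJ.symm k).1.1) (eJ.symm k).1.2
  have hentry : ∀ (q : Coprod G (FreeGroup (Fin n))) z (j : Fin Y0.card),
      (((Multiplicative.toAdd (expSum (stab (G := G) (X := Fin n) b) Y0.card (c q z))) j : ℤ) :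
        ZMod p) = row (ZMod p) q z (e.symm j).1 := by
    intro q z j
    rw [row_apply]
    refine ecoc_unique _ (fun q z => (((Multiplicative.toAdd
      (expSum (stab (G := G) (X := Fin n) b) Y0.card (c q z))) j : ℤ) : ZMod p)) ?_ ?_ ?_ q z
    · intro q r z
      rw [hc, map_mul, toAdd_mul, Pi.add_apply, Int.cast_add]
    · intro g z
      rw [hcinl, expSum_inl]
      simp
    · intro x z
      rw [hcof]
      by_cases hx : (x, z) ∈ Y0
      · rw [dif_pos hx, expSum_of, toAdd_ofAdd]
        by_cases hj : e ⟨(x, z), hx⟩ = j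
        · subst hj
          simp
        · rw [Pi.single_apply, if_neg (Ne.symm hj), Finsupp.single_apply, if_neg, Int.cast_zero]
          intro hc'
          apply hj
          rw [← Equiv.eq_symm_apply]
          exact Subtype.ext hc'
      · rw [dif_neg hx, map_one, Finsupp.single_apply, if_neg]
        · simp
        · intro hc'
          apply hx
          rw [hc']
          exact (e.symm j).2
  have hWrank : ((expMatrix W).map (Int.cast : ℤ → ZMod p)).rank = J0.card := by
    apply rank_of_linInd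
    intro v hv
    let f : (Fin m × (Coprod G (FreeGroup (Fin n)) ⧸ S)) →₀ ZMod p :=
      ∑ k : Fin J0.card, Finsupp.single (eJ.symm k).1 (v k)
    have hfsupp : (↑f.support : Set _) ⊆ visited T S := by
      intro y hy
      have hy' : f y ≠ 0 := by simpa using hy
      by_contra hyJ
      apply hy'
      simp only [f, Finsupp.finsetSum_apply]
      refine Finset.sum_eq_zero fun k _ => ?_
      rw [Finsupp.single_apply, if_neg]
      intro hc'
      apply hyJ
      rw [← hc']
      exact hfin.mem_toFinset.mp (eJ.symm k).2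
    have hrow : ∀ y : Fin n × (Coprod G (FreeGroup (Fin n)) ⧸ S),
        ∑ k : Fin J0.card, v k * row (ZMod p) (w (eJ.symm k).1.1) (eJ.symm k).1.2 y = 0 := by
      intro y
      by_cases hy : y ∈ Y0
      · have h1 := hv (e ⟨y, hy⟩)
        rw [← h1]
        refine Finset.sum_congr rfl fun k _ => ?_
        congr 1
        have h2 := hentry (w (eJ.symm k).1.1) (eJ.symm k).1.2 (e ⟨y, hy⟩)
        rw [Equiv.symm_apply_apply] at h2
        exact h2.symm
      · refine Finset.sum_eq_zero fun k _ => ?_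
        have h3 : row (ZMod p) (w (eJ.symm k).1.1) (eJ.symm k).1.2 y = 0 := by
          by_contra hne
          apply hy
          exact Finset.mem_biUnion.mpr ⟨(eJ.symm k).1, (eJ.symm k).2,
            Finsupp.mem_support_iff.mpr hne⟩
        rw [h3, mul_zero]
    have hpair : ∀ β, pair w f β = 0 := by
      intro β
      have h1 : pair w f β = ∑ k : Fin J0.card,
          v k * ecoc β (w (eJ.symm k).1.1) (eJ.symm k).1.2 := by
        simp only [f]
        rw [pair_sum_left]
        refine Finset.sum_congr rfl fun k _ => ?_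
        unfold pair
        rw [Finsupp.sum_single_index (zero_mul _)]
      have h2 : ∀ k, ecoc β (w (eJ.symm k).1.1) (eJ.symm k).1.2 =
          ∑ y ∈ Y0, row (ZMod p) (w (eJ.symm k).1.1) (eJ.symm k).1.2 y * β y.1 y.2 := by
        intro k
        rw [ecoc_eq_row]
        refine Finsupp.sum_of_support_subset _ ?_ _ (fun _ _ => zero_mul _)
        intro y hy
        exact Finset.mem_biUnion.mpr ⟨(eJ.symm k).1, (eJ.symm k).2, hy⟩
      rw [h1]
      simp only [h2, Finset.mul_sum]
      rw [Finset.sum_comm]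
      refine Finset.sum_eq_zero fun y _ => ?_
      have h3 := hrow y
      have h4 : ∑ k : Fin J0.card, v k * (row (ZMod p) (w (eJ.symm k).1.1) (eJ.symm k).1.2 y *
          β y.1 y.2) = (∑ k : Fin J0.card,
          v k * row (ZMod p) (w (eJ.symm k).1.1) (eJ.symm k).1.2 y) * β y.1 y.2 := by
        rw [Finset.sum_mul]
        exact Finset.sum_congr rfl fun k _ => (mul_assoc _ _ _).symm
      rw [h4, h3, zero_mul]
    have hf0 := hSgood f hfsupp hpair
    funext k
    have h5 : f (eJ.symm k).1 = v k := by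
      simp only [f, Finsupp.finsetSum_apply]
      rw [Finset.sum_eq_single k]
      · simp
      · intro j _ hj
        rw [Finsupp.single_apply, if_neg]
        intro hc'
        exact hj (eJ.symm.injective (Subtype.ext hc'))
      · intro hc'
        exact absurd (Finset.mem_univ _) hc'
    rw [← h5, hf0]
    rfl
  have hsol := hH _ _ W hWrank
  -- the final homomorphism
  let c2 : Coprod G (FreeGroup (Fin n)) → Coprod G (FreeGroup (Fin n)) ⧸ S →
      Coprod (stab (G := G) (X := Fin n) b) (FreeGroup (Fin Y0.card)) ⧸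
        Subgroup.normalClosure (Set.range W) := fun q z => QuotientGroup.mk (c q z)
  have hc2 : IsCoc c2 := by
    intro q r z
    simp only [c2]
    rw [hc]
    rfl
  have hc2w : ∀ t ∈ T, c2 (w t.1) (QuotientGroup.mk t.2) = 1 := by
    intro t ht
    have hmem : (t.1, (QuotientGroup.mk t.2 : Coprod G (FreeGroup (Fin n)) ⧸ S)) ∈ J0 :=
      hfin.mem_toFinset.mpr (hcosets t ht)
    have h1 : c (w t.1) (QuotientGroup.mk t.2) = W (eJ ⟨_, hmem⟩) := by
      simp only [W, Equiv.symm_apply_apply]
    simp only [c2]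
    rw [h1, QuotientGroup.eq_one_iff]
    exact Subgroup.subset_normalClosure ⟨_, rfl⟩
  have hall : ∀ x ∈ Subgroup.closure
      ((fun t : Fin m × Coprod G (FreeGroup (Fin n)) => t.2⁻¹ * w t.1 * t.2) ''
        (↑T : Set (Fin m × Coprod G (FreeGroup (Fin n))))),
      ∃ hx : x ∈ S, resHom c2 hc2 ⟨x, hx⟩ = 1 := by
    intro x hx
    induction hx using Subgroup.closure_induction with
    | mem x hx =>
      obtain ⟨t, ht, rfl⟩ := hx
      refine ⟨hSc t ht, ?_⟩
      change c2 (t.2⁻¹ * w t.1 * t.2) (QuotientGroup.mk 1) = 1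
      rw [coc_conj c2 hc2 _ _ (hSc t ht), hc2w t ht]
      simp
    | one => exact ⟨S.one_mem, map_one _⟩
    | mul x y _ _ ihx ihy =>
      obtain ⟨hx, hx'⟩ := ihx
      obtain ⟨hy, hy'⟩ := ihy
      refine ⟨S.mul_mem hx hy, ?_⟩
      have : (⟨x * y, S.mul_mem hx hy⟩ : S) = ⟨x, hx⟩ * ⟨y, hy⟩ := rfl
      rw [this, map_mul, hx', hy', mul_one]
    | inv x _ ih =>
      obtain ⟨hx, hx'⟩ := ih
      refine ⟨S.inv_mem hx, ?_⟩
      have : (⟨x⁻¹, S.inv_mem hx⟩ : S) = ⟨x, hx⟩⁻¹ := rfl
      rw [this, map_inv, hx', inv_one]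
  obtain ⟨hgS, hg1⟩ := hall _ hT
  have hgb : (Coprod.inl g0 : Coprod G (FreeGroup (Fin n))) • b = b := hbS ⟨_, hgS⟩
  have h1 : c2 (Coprod.inl g0) b = 1 := hg1
  simp only [c2] at h1
  rw [hcinl] at h1
  have h2 := hαb ⟨g0, hgb⟩
  simp only at h2
  rw [h2] at h1
  have h3 : (⟨g0, hgb⟩ : stab (G := G) (X := Fin n) b) = 1 := by
    apply hsol
    simp only
    rw [h1, map_one]
    rfl
  exact congrArg Subtype.val h3

end Vale.Agent.P174
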