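import Vale.Agent.P174.Structure

/-!
# P174: the finest good subgroup, extension of homomorphisms
-/

namespace Vale.Agent.P174

open Monoid

variable {G X : Type*} [Group G] {ι : Type*}

theorem exists_finest {p : ℕ} [Fact p.Prime] (w : ι → Coprod G (FreeGroup X))
    (T : Finset (ι × Coprod G (FreeGroup X))) (hgood : Good (ZMod p) w (visited T ⊤)) :
    ∃ S : Subgroup (Coprod G (FreeGroup X)), S.FG ∧
      (∀ t ∈ T, t.2⁻¹ * w t.1 * t.2 ∈ S) ∧ Good (ZMod p) w (visited T S) ∧
      ∀ θ : S →* Multiplicative (ZMod p),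
        (∀ x : S, (∃ t ∈ T, (x : Coprod G (FreeGroup X)) = t.2⁻¹ * w t.1 * t.2) → θ x = 1) →
        θ = 1 := by
  classical
  let κ : Subgroup (Coprod G (FreeGroup X)) → ℕ := fun S =>
    ((T ×ˢ T).filter fun tt => tt.1.2⁻¹ * tt.2.2 ∈ S).card
  let C : Set (Subgroup (Coprod G (FreeGroup X))) :=
    {S | (∀ t ∈ T, t.2⁻¹ * w t.1 * t.2 ∈ S) ∧ Good (ZMod p) w (visited T S)}
  obtain ⟨S, hSC, hmin⟩ := WellFounded.has_min (measure κ).wf C
    ⟨⊤, fun t _ => Subgroup.mem_top _, hgood⟩
  let A : Finset (Coprod G (FreeGroup X)) :=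
    (T.image fun t => t.2⁻¹ * w t.1 * t.2) ∪
      (((T ×ˢ T).filter fun tt => tt.1.2⁻¹ * tt.2.2 ∈ S).image fun tt => tt.1.2⁻¹ * tt.2.2)
  have hAS : (↑A : Set (Coprod G (FreeGroup X))) ⊆ S := by
    intro x hx
    simp only [A, Finset.coe_union, Finset.coe_image, Set.mem_union, Set.mem_image,
      Finset.mem_coe, Finset.mem_filter] at hx
    rcases hx with ⟨t, ht, rfl⟩ | ⟨tt, ⟨_, htt⟩, rfl⟩
    · exact hSC.1 t ht
    · exact htt
  set S0 := Subgroup.closure (↑A : Set (Coprod G (FreeGroup X))) with hS0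
  have hle : S0 ≤ S := (Subgroup.closure_le _).mpr hAS
  have hc : ∀ t ∈ T, t.2⁻¹ * w t.1 * t.2 ∈ S0 := by
    intro t ht
    apply Subgroup.subset_closure
    exact Finset.mem_coe.mpr (Finset.mem_union_left _ (Finset.mem_image_of_mem _ ht))
  have hpairs : ∀ t ∈ T, ∀ t' ∈ T, t.2⁻¹ * t'.2 ∈ S → t.2⁻¹ * t'.2 ∈ S0 := by
    intro t ht t' ht' hm
    apply Subgroup.subset_closure
    refine Finset.mem_coe.mpr (Finset.mem_union_right _ (Finset.mem_image.mpr ⟨(t, t'), ?_, rfl⟩))
    exact Finset.mem_filter.mpr ⟨Finset.mem_product.mpr ⟨ht, ht'⟩, hm⟩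
  have hgood0 : Good (ZMod p) w (visited T S0) := Good.sub hle hpairs hSC.2
  refine ⟨S0, ⟨A, hS0.symm⟩, hc, hgood0, ?_⟩
  intro θ hθ
  by_contra hne
  have hsurj : Function.Surjective θ := by
    have : ∃ x, θ x ≠ 1 := by
      by_contra hcon
      push Not at hcon
      exact hne (MonoidHom.ext hcon)
    obtain ⟨x, hx⟩ := this
    have hr : θ.range ≠ ⊥ := by
      intro hb
      apply hx
      have : θ x ∈ θ.range := ⟨x, rfl⟩
      rw [hb] at this
      exact this
    have hp : Nat.card (Multiplicative (ZMod p)) = p := by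
      rw [Nat.card_congr Multiplicative.toAdd, Nat.card_zmod]
    have htop : θ.range = ⊤ := by
      have hpr : (Nat.card (Multiplicative (ZMod p))).Prime := by
        rw [hp]; exact Fact.out
      have := Fact.mk hpr
      exact (Subgroup.eq_bot_or_eq_top_of_prime_card θ.range).resolve_left hr
    exact MonoidHom.range_eq_top.mp htop
  set S' := θ.ker.map S0.subtype with hS'
  have hle' : S' ≤ S0 := by
    rintro _ ⟨x, _, rfl⟩
    exact x.2
  have hmemC : S' ∈ C := by
    refine ⟨fun t ht => ?_, hgood0.ker θ hsurj⟩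
    exact ⟨⟨_, hc t ht⟩, hθ ⟨_, hc t ht⟩ ⟨t, ht, rfl⟩, rfl⟩
  have hnot := hmin S' hmemC
  have hκ : κ S ≤ κ S' := by
    by_contra hcon
    exact hnot (not_le.mp hcon)
  have hsub : ((T ×ˢ T).filter fun tt => tt.1.2⁻¹ * tt.2.2 ∈ S') ⊆
      ((T ×ˢ T).filter fun tt => tt.1.2⁻¹ * tt.2.2 ∈ S) := by
    intro tt htt
    rw [Finset.mem_filter] at htt ⊢
    exact ⟨htt.1, hle (hle' htt.2)⟩
  have heq := Finset.eq_of_subset_of_card_le hsub hκ
  have hS0S' : S0 ≤ S' := by
    rw [hS0, Subgroup.closure_le]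
    intro x hx
    simp only [A, Finset.coe_union, Finset.coe_image, Set.mem_union, Set.mem_image,
      Finset.mem_coe] at hx
    rcases hx with ⟨t, ht, rfl⟩ | ⟨tt, htt, rfl⟩
    · exact hmemC.1 t ht
    · rw [← heq, Finset.mem_filter] at htt
      exact htt.2
  apply hne
  ext x
  obtain ⟨y, hy, hyx⟩ := hS0S' x.2
  have : y = x := Subtype.ext hyx
  rw [← this]
  exact congrArg _ hy

section Beta

variable {k : Type*} [Field k] {Q : Type*} [MulAction (Coprod G (FreeGroup X)) Q]

theorem Good.exists_beta {w : ι → Coprod G (FreeGroup X)} {J : Set (ι × Q)} (h : Good k w J)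
    (hJ : J.Finite) (t : ι × Q → k) : ∃ β : X → Q → k, ∀ iz ∈ J, ecoc β (w iz.1) iz.2 = t iz := by
  classical
  have : Fintype J := hJ.fintype
  let Φ : (X → Q → k) →ₗ[k] (J → k) :=
    { toFun := fun β iz => ecoc β (w iz.1.1) iz.1.2
      map_add' := fun β γ => by
        funext iz
        exact ecoc_add β γ _ _
      map_smul' := fun c β => by
        funext iz
        have := ecoc_map (G := G) (AddMonoidHom.mulLeft c) β (w iz.1.1) iz.1.2
        exact this.symm }
  by_contra hcon
  have hnot : (fun iz : J => t iz.1) ∉ LinearMap.range Φ := by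
    rintro ⟨β, hβ⟩
    exact hcon ⟨β, fun iz hiz => congrFun hβ ⟨iz, hiz⟩⟩
  obtain ⟨φ, hφ, hle⟩ := Submodule.exists_le_ker_of_notMem hnot
  let f : (ι × Q) →₀ k := ∑ iz : J, Finsupp.single iz.1 (φ (Pi.single iz 1))
  have hfsupp : (↑f.support : Set (ι × Q)) ⊆ J := by
    intro y hy
    have hy' : f y ≠ 0 := by simpa using hy
    by_contra hyJ
    apply hy'
    simp only [f, Finsupp.finsetSum_apply]
    refine Finset.sum_eq_zero fun iz _ => ?_
    rw [Finsupp.single_apply, if_neg]
    rintro rfl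
    exact hyJ iz.2
  have hφsum : ∀ v : J → k, φ v = ∑ iz : J, φ (Pi.single iz 1) * v iz := by
    intro v
    have hv : v = ∑ iz : J, v iz • (Pi.single iz (1 : k) : J → k) := by
      ext j
      simp [Finset.sum_apply, Pi.single_apply]
    conv_lhs => rw [hv]
    rw [map_sum]
    refine Finset.sum_congr rfl fun iz _ => ?_
    rw [map_smul, smul_eq_mul, mul_comm]
  have hpair : ∀ β, pair w f β = 0 := by
    intro β
    have h1 : pair w f β = ∑ iz : J, φ (Pi.single iz 1) * ecoc β (w iz.1.1) iz.1.2 := by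
      simp only [f]
      rw [pair_sum_left]
      refine Finset.sum_congr rfl fun iz _ => ?_
      unfold pair
      rw [Finsupp.sum_single_index (zero_mul _)]
    rw [h1]
    have h2 : φ (Φ β) = 0 := hle ⟨β, rfl⟩
    rw [hφsum] at h2
    exact h2
  have hf0 := h f hfsupp hpair
  apply hφ
  rw [hφsum]
  refine Finset.sum_eq_zero fun iz _ => ?_
  have h3 : f iz.1 = φ (Pi.single iz 1) := by
    simp only [f, Finsupp.finsetSum_apply]
    rw [Finset.sum_eq_single iz]
    · simp
    · intro j _ hj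
      rw [Finsupp.single_apply, if_neg]
      intro hc
      exact hj (Subtype.ext hc)
    · intro hc
      exact absurd (Finset.mem_univ _) hc
  rw [← h3, hf0]
  simp

end Beta

section Alpha

variable {Q : Type*} [MulAction (Coprod G (FreeGroup X)) Q]

/-- The subgroup of `G` fixing `b`. -/
def stab (b : Q) : Subgroup G :=
  (MulAction.stabilizer (Coprod G (FreeGroup X)) b).comap
    (Coprod.inl : G →* Coprod G (FreeGroup X))

theorem exists_alpha (b : Q) :
    ∃ α : G → Q → stab (G := G) (X := X) b,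
      (∀ g h z, α (g * h) z = α g ((Coprod.inl h : Coprod G (FreeGroup X)) • z) * α h z) ∧
      ∀ h : stab (G := G) (X := X) b, α h b = h := by
  classical
  let O : Q → Prop := fun z => ∃ g : G, (Coprod.inl g : Coprod G (FreeGroup X)) • b = z
  have hsec : ∃ s : Q → G, s b = 1 ∧
      ∀ z, O z → (Coprod.inl (s z) : Coprod G (FreeGroup X)) • b = z := by
    refine ⟨fun z => if z = b then 1 else if h : O z then h.choose else 1, by simp, ?_⟩
    intro z hz
    by_cases hzb : z = b
    · subst hzb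
      simp
    · simp only [hzb, if_false, dif_pos hz]
      exact hz.choose_spec
  obtain ⟨s, hsb, hs⟩ := hsec
  have hO : ∀ g z, O z → O ((Coprod.inl g : Coprod G (FreeGroup X)) • z) := by
    rintro g _ ⟨h, rfl⟩
    exact ⟨g * h, by rw [map_mul, mul_smul]⟩
  have hO' : ∀ g z, ¬ O z → ¬ O ((Coprod.inl g : Coprod G (FreeGroup X)) • z) := by
    rintro g z hz ⟨h, hh⟩
    apply hz
    refine ⟨g⁻¹ * h, ?_⟩
    rw [map_mul, mul_smul, hh, map_inv, inv_smul_smul]
  have hmem : ∀ g z, O z →
      (s ((Coprod.inl g : Coprod G (FreeGroup X)) • z))⁻¹ * g * s z ∈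
        stab (G := G) (X := X) b := by
    intro g z hz
    change (Coprod.inl _ : Coprod G (FreeGroup X)) • b = b
    rw [map_mul, map_mul, mul_smul, mul_smul, hs z hz, map_inv, inv_smul_eq_iff, hs _ (hO g z hz)]
  refine ⟨fun g z => if hz : O z then ⟨_, hmem g z hz⟩ else 1, ?_, ?_⟩
  · intro g h z
    by_cases hz : O z
    · simp only [dif_pos hz, dif_pos (hO h z hz)]
      apply Subtype.ext
      simp only [Subgroup.coe_mul]
      rw [map_mul, mul_smul]
      group
    · simp only [dif_neg hz, dif_neg (hO' h z hz), mul_one]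
  · intro h
    have hb : O b := ⟨1, by rw [map_one, one_smul]⟩
    simp only [dif_pos hb]
    apply Subtype.ext
    have h1 : (Coprod.inl (h : G) : Coprod G (FreeGroup X)) • b = b := h.2
    simp only [h1, hsb, inv_one, one_mul, mul_one]

end Alpha

end Vale.Agent.P174
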