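import Vale.Agent.P174.Cocycle

/-!
# P174: linear cocycles, rows, the property `Good`
-/

namespace Vale.Agent.P174

open Monoid

variable {G X : Type*} [Group G]

section E

variable {Q A : Type*} [MulAction (Coprod G (FreeGroup X)) Q] [AddCommGroup A]

/-- The additive cocycle that kills `G` and has the values `β` on the free generators. -/
noncomputable def ecoc (β : X → Q → A) (p : Coprod G (FreeGroup X)) (z : Q) : A :=
  Multiplicative.toAdd ((exists_coc (G := G) (X := X) (Q := Q) (Ω := Multiplicative A)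
    (fun _ _ => 1) (fun _ _ _ => (mul_one _).symm)
    (fun x z => Multiplicative.ofAdd (β x z))).choose p z)

theorem ecoc_mul (β : X → Q → A) (p q : Coprod G (FreeGroup X)) (z : Q) :
    ecoc β (p * q) z = ecoc β p (q • z) + ecoc β q z := by
  have h := (exists_coc (G := G) (X := X) (Q := Q) (Ω := Multiplicative A)
    (fun _ _ => 1) (fun _ _ _ => (mul_one _).symm)
    (fun x z => Multiplicative.ofAdd (β x z))).choose_spec.1 p q z
  exact congrArg Multiplicative.toAdd h

theorem ecoc_inl (β : X → Q → A) (g : G) (z : Q) :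
    ecoc β (Coprod.inl g) z = 0 :=
  congrArg Multiplicative.toAdd ((exists_coc (G := G) (X := X) (Q := Q) (Ω := Multiplicative A)
    (fun _ _ => 1) (fun _ _ _ => (mul_one _).symm)
    (fun x z => Multiplicative.ofAdd (β x z))).choose_spec.2.1 g z)

theorem ecoc_of (β : X → Q → A) (x : X) (z : Q) :
    ecoc (G := G) β (Coprod.inr (FreeGroup.of x)) z = β x z :=
  congrArg Multiplicative.toAdd ((exists_coc (G := G) (X := X) (Q := Q) (Ω := Multiplicative A)
    (fun _ _ => 1) (fun _ _ _ => (mul_one _).symm)
    (fun x z => Multiplicative.ofAdd (β x z))).choose_spec.2.2 x z)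

theorem ecoc_unique (β : X → Q → A) (c : Coprod G (FreeGroup X) → Q → A)
    (h0 : ∀ p q z, c (p * q) z = c p (q • z) + c q z)
    (h1 : ∀ g z, c (Coprod.inl g) z = 0)
    (h2 : ∀ x z, c (Coprod.inr (FreeGroup.of x)) z = β x z) (p : Coprod G (FreeGroup X)) (z : Q) :
    c p z = ecoc β p z := by
  have h := IsCoc.ext (G := G) (X := X) (Q := Q) (Ω := Multiplicative A)
    (c := fun p z => Multiplicative.ofAdd (c p z))
    (c' := fun p z => Multiplicative.ofAdd (ecoc β p z))
    (fun p q z => congrArg Multiplicative.ofAdd (h0 p q z))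
    (fun p q z => congrArg Multiplicative.ofAdd (ecoc_mul β p q z))
    (fun g z => by simp only [h1, ecoc_inl])
    (fun x z => by simp only [h2, ecoc_of]) p z
  exact congrArg Multiplicative.toAdd h

theorem ecoc_map {B : Type*} [AddCommGroup B] (f : A →+ B) (β : X → Q → A)
    (p : Coprod G (FreeGroup X)) (z : Q) :
    f (ecoc β p z) = ecoc (fun x z => f (β x z)) p z :=
  ecoc_unique (fun x z => f (β x z)) (fun p z => f (ecoc β p z))
    (fun p q z => by rw [ecoc_mul, map_add]) (fun g z => by rw [ecoc_inl, map_zero])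
    (fun x z => by rw [ecoc_of]) p z

theorem ecoc_add (β γ : X → Q → A) (p : Coprod G (FreeGroup X)) (z : Q) :
    ecoc (fun x z => β x z + γ x z) p z = ecoc β p z + ecoc γ p z := by
  symm
  refine ecoc_unique _ (fun p z => ecoc β p z + ecoc γ p z) ?_ ?_ ?_ p z
  · intro p q z
    simp only [ecoc_mul]
    abel
  · intro g z
    simp only [ecoc_inl, add_zero]
  · intro x z
    simp only [ecoc_of]

theorem ecoc_sum {ι : Type*} (s : Finset ι) (β : ι → X → Q → A) (p : Coprod G (FreeGroup X))
    (z : Q) : ecoc (fun x z => ∑ i ∈ s, β i x z) p z = ∑ i ∈ s, ecoc (β i) p z := by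
  symm
  refine ecoc_unique _ (fun p z => ∑ i ∈ s, ecoc (β i) p z) ?_ ?_ ?_ p z
  · intro p q z
    simp only [ecoc_mul, Finset.sum_add_distrib]
  · intro g z
    simp only [ecoc_inl, Finset.sum_const_zero]
  · intro x z
    simp only [ecoc_of]

theorem ecoc_pull {Q' : Type*} [MulAction (Coprod G (FreeGroup X)) Q'] (π : Q' → Q)
    (hπ : ∀ (p : Coprod G (FreeGroup X)) z, π (p • z) = p • π z) (β : X → Q → A)
    (p : Coprod G (FreeGroup X)) (z : Q') :
    ecoc β p (π z) = ecoc (fun x z => β x (π z)) p z :=
  ecoc_unique (fun x z => β x (π z)) (fun p z => ecoc β p (π z))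
    (fun p q z => by simp only [ecoc_mul, hπ]) (fun g z => ecoc_inl _ _ _)
    (fun x z => ecoc_of _ _ _) p z

end E

section Good

variable {ι k : Type*} [Field k] {Q : Type*} [MulAction (Coprod G (FreeGroup X)) Q]

/-- The value on `β` of the combination `f` of the rows of the lifted system. -/
noncomputable def pair (w : ι → Coprod G (FreeGroup X)) (f : (ι × Q) →₀ k) (β : X → Q → k) : k :=
  f.sum fun iz c => c * ecoc β (w iz.1) iz.2

/-- The rows of the lifted system with index in `J` are linearly independent. -/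
def Good (k : Type*) [Field k] (w : ι → Coprod G (FreeGroup X)) (J : Set (ι × Q)) : Prop :=
  ∀ f : (ι × Q) →₀ k, (↑f.support : Set (ι × Q)) ⊆ J → (∀ β, pair w f β = 0) → f = 0

theorem Good.mono {w : ι → Coprod G (FreeGroup X)} {J J' : Set (ι × Q)} (h : Good k w J)
    (hJ : J' ⊆ J) : Good k w J' := fun f hf h0 => h f (hf.trans hJ) h0

theorem pair_mapDomain {Q' : Type*} [MulAction (Coprod G (FreeGroup X)) Q'] (π : Q' → Q)
    (hπ : ∀ (p : Coprod G (FreeGroup X)) z, π (p • z) = p • π z)
    (w : ι → Coprod G (FreeGroup X)) (f : (ι × Q') →₀ k) (β : X → Q → k) :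
    pair w (f.mapDomain (Prod.map id π)) β = pair w f (fun x z => β x (π z)) := by
  unfold pair
  rw [Finsupp.sum_mapDomain_index (fun _ => zero_mul _) (fun _ _ _ => add_mul _ _ _)]
  refine Finsupp.sum_congr fun iz _ => ?_
  simp only [Prod.map_fst, Prod.map_snd, id]
  rw [ecoc_pull π hπ]

/-- Step 1: pulling back along an equivariant map that is injective on the indices. -/
theorem Good.pull {Q' : Type*} [MulAction (Coprod G (FreeGroup X)) Q'] (π : Q' → Q)
    (hπ : ∀ (p : Coprod G (FreeGroup X)) z, π (p • z) = p • π z)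
    {w : ι → Coprod G (FreeGroup X)} {J : Set (ι × Q)} {J' : Set (ι × Q')}
    (hmaps : Set.MapsTo (Prod.map id π) J' J) (hinj : Set.InjOn (Prod.map id π) J')
    (h : Good k w J) : Good k w J' := by
  classical
  intro f hf h0
  have h1 : f.mapDomain (Prod.map id π) = 0 := by
    refine h _ ?_ fun β => ?_
    · intro y hy
      have := Finsupp.mapDomain_support hy
      rw [Finset.mem_image] at this
      obtain ⟨x, hx, rfl⟩ := this
      exact hmaps (hf hx)
    · rw [pair_mapDomain π hπ]
      exact h0 _
  have h2 : f.mapDomain (Prod.map id π) = (0 : (ι × Q') →₀ k).mapDomain (Prod.map id π) := by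
    rw [h1, Finsupp.mapDomain_zero]
  exact Finsupp.mapDomain_injOn J' hinj (by simpa using hf) (by simp) h2

theorem pair_add_left (w : ι → Coprod G (FreeGroup X)) (f g : (ι × Q) →₀ k) (β : X → Q → k) :
    pair w (f + g) β = pair w f β + pair w g β := by
  classical
  unfold pair
  exact Finsupp.sum_add_index' (fun _ => zero_mul _) (fun _ _ _ => add_mul _ _ _)

theorem pair_zero_left (w : ι → Coprod G (FreeGroup X)) (β : X → Q → k) :
    pair w (0 : (ι × Q) →₀ k) β = 0 := Finsupp.sum_zero_index

theorem pair_sum_left {κ : Type*} (s : Finset κ) (w : ι → Coprod G (FreeGroup X))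
    (f : κ → (ι × Q) →₀ k) (β : X → Q → k) :
    pair w (∑ i ∈ s, f i) β = ∑ i ∈ s, pair w (f i) β := by
  classical
  induction s using Finset.induction_on with
  | empty => simp [pair_zero_left]
  | insert a s ha ih => rw [Finset.sum_insert ha, Finset.sum_insert ha, pair_add_left, ih]

theorem pair_sum_right {κ : Type*} (s : Finset κ) (w : ι → Coprod G (FreeGroup X))
    (f : (ι × Q) →₀ k) (β : κ → X → Q → k) :
    pair w f (fun x z => ∑ i ∈ s, β i x z) = ∑ i ∈ s, pair w f (β i) := by
  classical
  unfold pair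
  simp only [ecoc_sum, Finset.mul_sum, Finsupp.sum]
  exact Finset.sum_comm

end Good

end Vale.Agent.P174
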