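import Vale.Agent.P174.Finest

/-!
# P174: the main theorem, mod `p`
-/

namespace Vale.Agent.P174

open Monoid

section Res

variable {P Ω : Type*} [Group P] [Group Ω] {S : Subgroup P}

/-- Restriction of a cocycle to the stabilizer of the base point. -/
def resHom (c : P → P ⧸ S → Ω) (hc : IsCoc c) : S →* Ω where
  toFun s := c s (QuotientGroup.mk 1)
  map_one' := hc.one _
  map_mul' s t := by
    have h : (t : P) • (QuotientGroup.mk 1 : P ⧸ S) = QuotientGroup.mk 1 := by
      change (QuotientGroup.mk ((t : P) * 1) : P ⧸ S) = _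
      rw [QuotientGroup.eq]
      simp
    rw [Subgroup.coe_mul, hc, h]

theorem coc_conj (c : P → P ⧸ S → Ω) (hc : IsCoc c) (w v : P) (h : v⁻¹ * w * v ∈ S) :
    c (v⁻¹ * w * v) (QuotientGroup.mk 1) =
      (c v (QuotientGroup.mk 1))⁻¹ * c w (QuotientGroup.mk v) * c v (QuotientGroup.mk 1) := by
  have h1 : v • (QuotientGroup.mk 1 : P ⧸ S) = QuotientGroup.mk v := by
    change (QuotientGroup.mk (v * 1) : P ⧸ S) = _
    rw [mul_one]
  have h2 : w • (QuotientGroup.mk v : P ⧸ S) = QuotientGroup.mk v := by
    change (QuotientGroup.mk (w * v) : P ⧸ S) = _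
    rw [QuotientGroup.eq]
    have := S.inv_mem h
    rw [show (v⁻¹ * w * v)⁻¹ = (w * v)⁻¹ * v by group] at this
    exact this
  rw [hc, h1, hc, h2]
  have h3 := hc.inv v (QuotientGroup.mk 1)
  rw [h1] at h3
  rw [h3]

end Res

theorem mem_closure_of_mem_normalClosure {P ι : Type*} [Group P] (w : ι → P) (x : P)
    (hx : x ∈ Subgroup.normalClosure (Set.range w)) :
    ∃ T : Finset (ι × P), x ∈ Subgroup.closure
      ((fun t : ι × P => t.2⁻¹ * w t.1 * t.2) '' (↑T : Set (ι × P))) := by
  classical
  unfold Subgroup.normalClosure at hx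
  induction hx using Subgroup.closure_induction with
  | mem x hx =>
    rw [Group.conjugatesOfSet, Set.mem_iUnion₂] at hx
    obtain ⟨_, ⟨i, rfl⟩, hi⟩ := hx
    obtain ⟨u, hu⟩ := isConj_iff.mp (show IsConj (w i) x from hi)
    refine ⟨{(i, u⁻¹)}, Subgroup.subset_closure ⟨(i, u⁻¹), by simp, ?_⟩⟩
    simpa using hu
  | one => exact ⟨∅, Subgroup.one_mem _⟩
  | mul x y _ _ ihx ihy =>
    obtain ⟨T, hT⟩ := ihx
    obtain ⟨T', hT'⟩ := ihy
    refine ⟨T ∪ T', Subgroup.mul_mem _ ?_ ?_⟩
    · exact Subgroup.closure_mono (Set.image_mono (by simp)) hT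
    · exact Subgroup.closure_mono (Set.image_mono (by simp)) hT'
  | inv x _ ih =>
    obtain ⟨T, hT⟩ := ih
    exact ⟨T, Subgroup.inv_mem _ hT⟩

theorem linInd_of_rank {K : Type*} [Field K] {m n : ℕ} (A : Matrix (Fin m) (Fin n) K)
    (h : A.rank = m) : LinearIndependent K A.row := by
  rw [linearIndependent_iff_card_eq_finrank_span, Fintype.card_fin]
  rw [Set.finrank, ← Matrix.rank_eq_finrank_span_row, h]

theorem rank_of_linInd {K : Type*} [Field K] {m n : ℕ} (A : Matrix (Fin m) (Fin n) K)
    (h : ∀ v : Fin m → K, (∀ j, ∑ i, v i * A i j = 0) → v = 0) : A.rank = m := by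
  have h1 : LinearIndependent K A.row := by
    rw [Fintype.linearIndependent_iff]
    intro v hv i
    have := h v (fun j => by
      have := congrFun hv j
      simpa [Finset.sum_apply, Matrix.row] using this)
    exact congrFun this i
  rw [linearIndependent_iff_card_eq_finrank_span, Fintype.card_fin] at h1
  rw [Set.finrank, ← Matrix.rank_eq_finrank_span_row] at h1
  exact h1.symm

section Init

variable {G : Type*} [Group G] {m n : ℕ}

theorem expSum_inl (g : G) : expSum G n (Coprod.inl g) = 1 := by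
  simp [expSum]

theorem expSum_of (j : Fin n) : expSum G n (Coprod.inr (FreeGroup.of j)) =
    Multiplicative.ofAdd (Pi.single j 1) := by
  simp [expSum]

theorem good_top {p : ℕ} [Fact p.Prime] (w : Fin m → Coprod G (FreeGroup (Fin n)))
    (h : ((expMatrix w).map (Int.cast : ℤ → ZMod p)).rank = m)
    (T : Finset (Fin m × Coprod G (FreeGroup (Fin n)))) :
    Good (ZMod p) w (visited T ⊤) := by
  classical
  intro f _ hf
  have hlin := linInd_of_rank _ h
  rw [Fintype.linearIndependent_iff] at hlin
  have hz : ∀ z : Coprod G (FreeGroup (Fin n)) ⧸ (⊤ : Subgroup (Coprod G (FreeGroup (Fin n)))),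
      z = QuotientGroup.mk 1 := by
    intro z
    induction z using QuotientGroup.induction_on with
    | H x => rw [QuotientGroup.eq]; exact Subgroup.mem_top _
  have hval : ∀ (j : Fin n) (i : Fin m) (z : Coprod G (FreeGroup (Fin n)) ⧸
      (⊤ : Subgroup (Coprod G (FreeGroup (Fin n))))),
      ecoc (fun (x : Fin n) (_ : Coprod G (FreeGroup (Fin n)) ⧸
        (⊤ : Subgroup (Coprod G (FreeGroup (Fin n))))) => if x = j then (1 : ZMod p) else 0)
        (w i) z = ((expMatrix w i j : ℤ) : ZMod p) := by
    intro j i z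
    symm
    refine ecoc_unique _ (fun q _ => (((Multiplicative.toAdd (expSum G n q)) j : ℤ) : ZMod p))
      ?_ ?_ ?_ (w i) z
    · intro q r _
      rw [map_mul, toAdd_mul, Pi.add_apply, Int.cast_add]
    · intro g _
      rw [expSum_inl]
      simp
    · intro x _
      rw [expSum_of]
      by_cases hx : x = j
      · subst hx; simp
      · simp [hx, Ne.symm hx]
  have hzero : ∀ i, f (i, QuotientGroup.mk 1) = 0 := by
    apply hlin (fun i => f (i, QuotientGroup.mk 1))
    funext j
    have h1 := hf (fun x _ => if x = j then 1 else 0)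
    unfold pair at h1
    simp only [hval] at h1
    have h2 := Finsupp.sum_of_support_subset f (s := Finset.univ.image fun i : Fin m =>
      (i, (QuotientGroup.mk 1 : Coprod G (FreeGroup (Fin n)) ⧸
      (⊤ : Subgroup (Coprod G (FreeGroup (Fin n))))))) (by
        intro iz _
        rw [Finset.mem_image]
        exact ⟨iz.1, Finset.mem_univ _, Prod.ext rfl (hz iz.2).symm⟩)
      (fun iz c => c * ((expMatrix w iz.1 j : ℤ) : ZMod p)) (fun _ _ => zero_mul _)
    rw [h2, Finset.sum_image (by intro a _ b _ hab; exact congrArg Prod.fst hab)] at h1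
    simpa [Finset.sum_apply, Matrix.row] using h1
  ext ⟨i, z⟩
  rw [hz z]
  exact hzero i

end Init

end Vale.Agent.P174
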