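import Vale.Agent.P174.Defs

/-!
# P174: small algebra lemmas, matrices
-/

namespace Vale.Agent.P174

open Matrix

theorem exists_right_inv {K : Type*} [Field K] {m n : ℕ} (A : Matrix (Fin m) (Fin n) K)
    (h : A.rank = m) : ∃ B : Matrix (Fin n) (Fin m) K, A * B = 1 := by
  rw [← mulVec_surjective_iff_exists_right_inverse]
  have : LinearMap.range A.mulVecLin = ⊤ := by
    apply Submodule.eq_top_of_finrank_eq
    have h2 : Module.finrank K (LinearMap.range A.mulVecLin) = m := h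
    rw [h2]; simp
  intro y
  have hy : y ∈ LinearMap.range A.mulVecLin := by rw [this]; trivial
  obtain ⟨x, hx⟩ := hy
  exact ⟨x, by simpa using hx⟩

theorem isUnit_of_rank {K : Type*} [Field K] {m : ℕ} (A : Matrix (Fin m) (Fin m) K)
    (h : A.rank = m) : IsUnit A := by
  obtain ⟨B, hB⟩ := exists_right_inv A h
  exact isUnit_iff_exists_inv.2 ⟨B, hB⟩

theorem rank_of_mul {K : Type*} [Field K] {m n : ℕ} (A : Matrix (Fin m) (Fin n) K)
    (B : Matrix (Fin n) (Fin m) K) (h : (A * B).det ≠ 0) : A.rank = m := by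
  have h1 : IsUnit (A * B) := (isUnit_iff_isUnit_det _).2 (isUnit_iff_ne_zero.2 h)
  have h2 : (A * B).rank = m := by simpa using rank_of_isUnit (A * B) h1
  have h3 := rank_mul_le_left A B
  have h4 := rank_le_height A
  omega

theorem gram_det_ne_zero {m n : ℕ} (A : Matrix (Fin m) (Fin n) ℤ)
    (h : (A.map (Int.cast : ℤ → ℚ)).rank = m) : (A * Aᵀ).det ≠ 0 := by
  intro h0
  have h1 : ((A.map (Int.cast : ℤ → ℚ)) * (A.map (Int.cast : ℤ → ℚ))ᵀ).rank = m := by
    rw [rank_self_mul_transpose, h]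
  have h2 := (isUnit_iff_isUnit_det _).1 (isUnit_of_rank _ h1)
  have h3 : ((A.map (Int.cast : ℤ → ℚ)) * (A.map (Int.cast : ℤ → ℚ))ᵀ)
      = (A * Aᵀ).map (Int.castRingHom ℚ) := by
    rw [Matrix.map_mul]; rfl
  rw [h3] at h2
  have h4 : ((A * Aᵀ).map (Int.castRingHom ℚ)).det = (Int.castRingHom ℚ) (A * Aᵀ).det :=
    (RingHom.map_det (Int.castRingHom ℚ) (A * Aᵀ)).symm
  rw [h4, h0] at h2
  simp at h2

/-- Rows independent over `ℚ` are independent modulo some prime. -/
theorem exists_prime_rank {m n : ℕ} (A : Matrix (Fin m) (Fin n) ℤ)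
    (h : (A.map (Int.cast : ℤ → ℚ)).rank = m) :
    ∃ p : ℕ, ∃ _ : Fact p.Prime, (A.map (Int.cast : ℤ → ZMod p)).rank = m := by
  have hd := gram_det_ne_zero A h
  obtain ⟨p, hp1, hp2⟩ := Nat.exists_infinite_primes ((A * Aᵀ).det.natAbs + 1)
  have : Fact p.Prime := ⟨hp2⟩
  refine ⟨p, inferInstance, ?_⟩
  apply rank_of_mul _ (A.map (Int.cast : ℤ → ZMod p))ᵀ
  have h3 : ((A.map (Int.cast : ℤ → ZMod p)) * (A.map (Int.cast : ℤ → ZMod p))ᵀ)
      = (A * Aᵀ).map (Int.castRingHom (ZMod p)) := by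
    rw [Matrix.map_mul]; rfl
  have h4 : ((A * Aᵀ).map (Int.castRingHom (ZMod p))).det
      = (Int.castRingHom (ZMod p)) (A * Aᵀ).det :=
    (RingHom.map_det (Int.castRingHom (ZMod p)) (A * Aᵀ)).symm
  rw [h3, h4]
  intro h0
  have h5 : (((A * Aᵀ).det : ℤ) : ZMod p) = 0 := by simpa using h0
  rw [ZMod.intCast_zmod_eq_zero_iff_dvd] at h5
  have h6 := Int.natAbs_dvd_natAbs.2 h5
  have h7 := Nat.le_of_dvd (Int.natAbs_pos.2 hd) h6
  simp at h7
  omega

/-- Rows independent modulo `p` are independent over `ℚ`. -/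
theorem rank_of_rank_mod {m n : ℕ} (p : ℕ) [Fact p.Prime] (A : Matrix (Fin m) (Fin n) ℤ)
    (h : (A.map (Int.cast : ℤ → ZMod p)).rank = m) :
    (A.map (Int.cast : ℤ → ℚ)).rank = m := by
  obtain ⟨B, hB⟩ := exists_right_inv _ h
  let C : Matrix (Fin n) (Fin m) ℤ := Matrix.of fun i j => ((B i j).val : ℤ)
  have hC : C.map (Int.castRingHom (ZMod p)) = B := by
    ext i j
    simp [C]
  have h1 : (A * C).map (Int.castRingHom (ZMod p)) = 1 := by
    rw [Matrix.map_mul, hC]; exact hB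
  have h2 : (A * C).det ≠ 0 := by
    intro h0
    have h4 : ((A * C).map (Int.castRingHom (ZMod p))).det
      = (Int.castRingHom (ZMod p)) (A * C).det :=
      (RingHom.map_det (Int.castRingHom (ZMod p)) (A * C)).symm
    rw [h1, h0] at h4
    simp at h4
  apply rank_of_mul _ (C.map (Int.castRingHom ℚ))
  have h5 : (A.map (Int.cast : ℤ → ℚ)) * (C.map (Int.castRingHom ℚ))
      = (A * C).map (Int.castRingHom ℚ) := by
    rw [Matrix.map_mul]; rfl
  have h6 : ((A * C).map (Int.castRingHom ℚ)).det = (Int.castRingHom ℚ) (A * C).det :=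
    (RingHom.map_det (Int.castRingHom ℚ) (A * C)).symm
  rw [h5, h6]
  simpa using h2

end Vale.Agent.P174
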