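import Vale.Agent.P174.Cover

/-!
# P174: the finest good subgroup
-/

namespace Vale.Agent.P174

open Monoid

variable {G X : Type*} [Group G] {ι : Type*}

/-- The set of visited relator classes for the subgroup `S`. -/
def visited (T : Finset (ι × Coprod G (FreeGroup X))) (S : Subgroup (Coprod G (FreeGroup X))) :
    Set (ι × (Coprod G (FreeGroup X) ⧸ S)) :=
  (fun t : ι × Coprod G (FreeGroup X) => (t.1, (QuotientGroup.mk t.2 : _ ⧸ S))) '' (↑T : Set _)

theorem quotientMapOfLE_smul {P : Type*} [Group P] {S' S : Subgroup P} (h : S' ≤ S) (g : P)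
    (z : P ⧸ S') : Subgroup.quotientMapOfLE h (g • z) = g • Subgroup.quotientMapOfLE h z := by
  induction z using QuotientGroup.induction_on with
  | H x => rfl

theorem Good.sub {p : ℕ} [Fact p.Prime] {w : ι → Coprod G (FreeGroup X)}
    {T : Finset (ι × Coprod G (FreeGroup X))} {S' S : Subgroup (Coprod G (FreeGroup X))}
    (hle : S' ≤ S) (hT : ∀ t ∈ T, ∀ t' ∈ T, t.2⁻¹ * t'.2 ∈ S → t.2⁻¹ * t'.2 ∈ S')
    (h : Good (ZMod p) w (visited T S)) : Good (ZMod p) w (visited T S') := by
  refine Good.pull (Subgroup.quotientMapOfLE hle) (quotientMapOfLE_smul hle) ?_ ?_ h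
  · rintro _ ⟨t, ht, rfl⟩
    exact ⟨t, ht, rfl⟩
  · rintro _ ⟨t, ht, rfl⟩ _ ⟨t', ht', rfl⟩ heq
    have h1 : t.1 = t'.1 := (Prod.ext_iff.mp heq).1
    have h2 : (QuotientGroup.mk t.2 : Coprod G (FreeGroup X) ⧸ S) = QuotientGroup.mk t'.2 :=
      (Prod.ext_iff.mp heq).2
    have h3 : (QuotientGroup.mk t.2 : Coprod G (FreeGroup X) ⧸ S') = QuotientGroup.mk t'.2 :=
      QuotientGroup.eq.mpr (hT t ht t' ht' (QuotientGroup.eq.mp h2))
    exact Prod.ext h1 h3

/-- Step 2: the kernel of a nontrivial homomorphism to `ℤ/p`. -/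
theorem Good.ker {p : ℕ} [Fact p.Prime] {w : ι → Coprod G (FreeGroup X)}
    {T : Finset (ι × Coprod G (FreeGroup X))} {S : Subgroup (Coprod G (FreeGroup X))}
    (θ : S →* Multiplicative (ZMod p)) (hθ : Function.Surjective θ)
    (h : Good (ZMod p) w (visited T S)) :
    Good (ZMod p) w (visited T (θ.ker.map S.subtype)) := by
  classical
  set S' : Subgroup (Coprod G (FreeGroup X)) := θ.ker.map S.subtype with hS'
  have hle : S' ≤ S := by
    rintro _ ⟨x, _, rfl⟩
    exact x.2
  have hmem : ∀ x : S, (x : Coprod G (FreeGroup X)) ∈ S' ↔ θ x = 1 := by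
    intro x
    constructor
    · rintro ⟨y, hy, hyx⟩
      have : y = x := Subtype.ext hyx
      rw [← this]
      exact hy
    · intro hx
      exact ⟨x, hx, rfl⟩
  -- right multiplication
  have hR : ∀ (s : S) (a b : Coprod G (FreeGroup X)), a⁻¹ * b ∈ S' →
      (a * s)⁻¹ * (b * s) ∈ S' := by
    intro s a b hab
    have h1 : a⁻¹ * b ∈ S := hle hab
    have h2 := (hmem ⟨_, h1⟩).mp hab
    have h3 : (a * s)⁻¹ * (b * s) = ((s⁻¹ * ⟨_, h1⟩ * s : S) : Coprod G (FreeGroup X)) := by
      simp only [Subgroup.coe_mul, Subgroup.coe_inv]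
      group
    rw [h3, hmem, map_mul, map_mul, h2]
    simp
  let R : S → (Coprod G (FreeGroup X) ⧸ S') → (Coprod G (FreeGroup X) ⧸ S') := fun s =>
    Quotient.map' (fun a => a * s) (fun a b hab => by
      rw [QuotientGroup.leftRel_apply] at hab ⊢
      exact hR s a b hab)
  have hRmk : ∀ s a, R s (QuotientGroup.mk a) = QuotientGroup.mk (a * s) := fun s a => rfl
  have hReq : ∀ (s : S) (a b : Coprod G (FreeGroup X)) (hab : a⁻¹ * b ∈ S),
      (QuotientGroup.mk (a * s) : Coprod G (FreeGroup X) ⧸ S') = QuotientGroup.mk b ↔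
        θ s = θ ⟨_, hab⟩ := by
    intro s a b hab
    rw [QuotientGroup.eq]
    have h3 : (a * s)⁻¹ * b = ((s⁻¹ * ⟨_, hab⟩ : S) : Coprod G (FreeGroup X)) := by
      simp only [Subgroup.coe_mul, Subgroup.coe_inv]
      group
    rw [h3, hmem, map_mul, map_inv, inv_mul_eq_one]
  choose s hs using hθ
  have hone : ∀ z, R (s 1) z = z := by
    intro z
    induction z using QuotientGroup.induction_on with
    | H x =>
      rw [hRmk]
      refine (hReq (s 1) x x (by simp)).mpr ?_
      rw [hs]
      symm
      rw [← hmem]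
      simp
  have hcomp : ∀ γ δ z, R (s (γ * δ)) z = R (s γ) (R (s δ) z) := by
    intro γ δ z
    induction z using QuotientGroup.induction_on with
    | H x =>
      rw [hRmk, hRmk, hRmk]
      have h1 : x⁻¹ * (x * (s δ : Coprod G (FreeGroup X)) * s γ) =
        ((s δ * s γ : S) : Coprod G (FreeGroup X)) := by
        simp only [Subgroup.coe_mul]
        group
      refine (hReq _ _ _ (by rw [h1]; exact (s δ * s γ).2)).mpr ?_
      have h2 : (⟨x⁻¹ * (x * (s δ : Coprod G (FreeGroup X)) * s γ),
        by rw [h1]; exact (s δ * s γ).2⟩ : S) = s δ * s γ := Subtype.ext h1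
      rw [h2, map_mul, hs, hs, hs, mul_comm]
  let ρ : Multiplicative (ZMod p) →* Equiv.Perm (Coprod G (FreeGroup X) ⧸ S') :=
    { toFun := fun γ => ⟨R (s γ), R (s γ⁻¹),
        fun z => by rw [← hcomp, inv_mul_cancel, hone],
        fun z => by rw [← hcomp, mul_inv_cancel, hone]⟩
      map_one' := by
        ext z
        exact hone z
      map_mul' := fun γ δ => by
        ext z
        exact hcomp γ δ z }
  have hρmk : ∀ γ x, ρ γ (QuotientGroup.mk x) = QuotientGroup.mk (x * s γ) := fun γ x => rfl
  let sec : Set (Coprod G (FreeGroup X) ⧸ S') :=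
    Set.range fun z : Coprod G (FreeGroup X) ⧸ S => (QuotientGroup.mk z.out :
      Coprod G (FreeGroup X) ⧸ S')
  have hcov := Good.cover (p := p) (Subgroup.quotientMapOfLE hle) (quotientMapOfLE_smul hle) ρ
    (by
      intro γ g z
      induction z using QuotientGroup.induction_on with
      | H x =>
        change ρ γ (QuotientGroup.mk (g * x)) = g • ρ γ (QuotientGroup.mk x)
        rw [hρmk, hρmk, mul_assoc]
        rfl)
    (by
      intro γ z
      induction z using QuotientGroup.induction_on with
      | H x =>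
        rw [hρmk]
        change (QuotientGroup.mk (x * s γ) : Coprod G (FreeGroup X) ⧸ S) = QuotientGroup.mk x
        rw [QuotientGroup.eq]
        simp)
    sec
    (by
      intro z
      induction z using QuotientGroup.induction_on with
      | H x =>
        obtain ⟨t, ht⟩ := QuotientGroup.mk_out_eq_mul S x
        refine ⟨θ t, ⟨QuotientGroup.mk x, ?_⟩, ?_⟩
        · change QuotientGroup.mk (Quotient.out (QuotientGroup.mk x : _ ⧸ S)) = _
          rw [hρmk]
          symm
          have h1 : x⁻¹ * Quotient.out (QuotientGroup.mk x : Coprod G (FreeGroup X) ⧸ S) = t := by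
            rw [ht]; group
          refine (hReq _ _ _ (by rw [h1]; exact t.2)).mpr ?_
          rw [hs]
          congr 1
          exact Subtype.ext h1.symm
        · rintro γ ⟨z, hz⟩
          rw [hρmk] at hz
          have h2 := congrArg (Subgroup.quotientMapOfLE hle) hz
          change (QuotientGroup.mk (Quotient.out z) : Coprod G (FreeGroup X) ⧸ S) =
            QuotientGroup.mk (x * s γ) at h2
          rw [QuotientGroup.out_eq'] at h2
          have h3 : z = QuotientGroup.mk x := by
            rw [h2, QuotientGroup.eq]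
            simp
          subst h3
          have h1 : x⁻¹ * Quotient.out (QuotientGroup.mk x : Coprod G (FreeGroup X) ⧸ S) = t := by
            rw [ht]; group
          have h4 := (hReq (s γ) x _ (by rw [h1]; exact t.2)).mp hz.symm
          rw [hs] at h4
          rw [h4]
          congr 1
          exact Subtype.ext h1)
    (by
      rintro _ ⟨z, rfl⟩ _ ⟨z', rfl⟩ hzz
      change (QuotientGroup.mk (Quotient.out z) : Coprod G (FreeGroup X) ⧸ S) =
            QuotientGroup.mk (Quotient.out z') at hzz
      rw [QuotientGroup.out_eq', QuotientGroup.out_eq'] at hzz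
      rw [hzz])
    h
  refine hcov.mono ?_
  rintro _ ⟨t, ht, rfl⟩
  exact ⟨t, ht, rfl⟩

end Vale.Agent.P174
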